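import Vale.Agent.N162.Quant

/-!
# P162: exponential decay of the distance, separation, and the dyadic lower bound
-/

open Finset Equiv

namespace Vale.Agent.P162.N

open H72

section group
variable {G : Type*} [Group G] [Fintype G]

theorem sum_abs_conv_le (f g : G → ℝ) :
    ∑ x, |conv f g x| ≤ (∑ x, |f x|) * ∑ x, |g x| := by
  rw [← sum_conv]
  refine sum_le_sum fun x _ => ?_
  unfold conv
  refine (abs_sum_le_sum_abs _ _).trans (le_of_eq ?_)
  exact sum_congr rfl fun h _ => abs_mul _ _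

theorem sum_shift (ν : G → ℝ) (x : G) : ∑ h, ν (h⁻¹ * x) = ∑ h, ν h :=
  Fintype.sum_equiv ((Equiv.inv G).trans (Equiv.mulRight x)) _ _ fun _ => rfl

theorem conv_sub_right {μ ν : G → ℝ} (hμ : ∑ g, μ g = 1) (x : G) :
    conv μ ν x - unif G x = conv μ (fun g => ν g - unif G g) x := by
  simp only [conv, unif, mul_sub, sum_sub_distrib, ← Finset.sum_mul, hμ, one_mul]

theorem conv_sub_both {μ ν : G → ℝ} (hμ : ∑ g, μ g = 1) (hν : ∑ g, ν g = 1) (x : G) :
    conv μ ν x - unif G x = conv (fun g => μ g - unif G g) (fun g => ν g - unif G g) x := by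
  have hc : (Fintype.card G : ℝ) ≠ 0 := by exact_mod_cast Fintype.card_ne_zero
  have h1 : ∑ h, (ν (h⁻¹ * x) - unif G (h⁻¹ * x)) = 0 := by
    rw [sum_sub_distrib, sum_shift, sum_shift, hν, sum_unif, sub_self]
  rw [conv_sub_right hμ]
  simp only [conv, sub_mul, sum_sub_distrib]
  have h2 : ∑ h, unif G h * (ν (h⁻¹ * x) - unif G (h⁻¹ * x)) = 0 := by
    have : ∀ h, unif G h * (ν (h⁻¹ * x) - unif G (h⁻¹ * x)) =
        (1 / Fintype.card G) * (ν (h⁻¹ * x) - unif G (h⁻¹ * x)) := fun _ => rfl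
    simp only [this]
    rw [← Finset.mul_sum, h1, mul_zero]
  rw [h2, sub_zero]

omit [Group G] in
theorem two_tv (μ : G → ℝ) : 2 * tv μ (unif G) = ∑ g, |μ g - unif G g| := by
  rw [tv]; ring

omit [Group G] in
theorem tv_nonneg (μ : G → ℝ) : 0 ≤ tv μ (unif G) := by
  unfold tv; positivity

theorem tv_conv_mul {μ ν : G → ℝ} (hμ : ∑ g, μ g = 1) (hν : ∑ g, ν g = 1) :
    2 * tv (conv μ ν) (unif G) ≤ (2 * tv μ (unif G)) * (2 * tv ν (unif G)) := by
  simp only [two_tv, conv_sub_both hμ hν]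
  exact sum_abs_conv_le _ _

theorem tv_conv_mono {μ ν : G → ℝ} (hμ0 : ∀ g, 0 ≤ μ g) (hμ : ∑ g, μ g = 1) :
    2 * tv (conv μ ν) (unif G) ≤ 2 * tv ν (unif G) := by
  simp only [two_tv, conv_sub_right hμ]
  refine (sum_abs_conv_le _ _).trans (le_of_eq ?_)
  have : ∑ x, |μ x| = 1 := by
    rw [← hμ]; exact sum_congr rfl fun x _ => abs_of_nonneg (hμ0 x)
  rw [this, one_mul]

/-- a pointwise lower bound for a convolution -/
theorem conv_ge {μ ν : G → ℝ} (hμ0 : ∀ g, 0 ≤ μ g) (hν0 : ∀ g, 0 ≤ ν g) (hμ : ∑ g, μ g = 1)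
    (hν : ∑ g, ν g = 1) (x : G) :
    (1 - (2 * tv μ (unif G) + 2 * tv ν (unif G))) / Fintype.card G ≤ conv μ ν x := by
  have hc : (0 : ℝ) < Fintype.card G := by exact_mod_cast Fintype.card_pos
  set w : G → ℝ := fun h => min (μ h) (ν (h⁻¹ * x)) with hw
  have hw0 : ∀ h, 0 ≤ w h := fun h => le_min (hμ0 _) (hν0 _)
  have h1 : ∑ h, w h ^ 2 ≤ conv μ ν x := by
    refine sum_le_sum fun h _ => ?_
    rw [sq]
    exact mul_le_mul (min_le_left _ _) (min_le_right _ _) (hw0 h) (hμ0 h)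
  have h2 : (∑ h, w h) ^ 2 ≤ Fintype.card G * ∑ h, w h ^ 2 := by
    simpa using sq_sum_le_card_mul_sum_sq (s := (univ : Finset G)) (f := w)
  have h3 : 1 - tv μ (unif G) - tv ν (unif G) ≤ ∑ h, w h := by
    have h4 : ∀ h, unif G h - (|μ h - unif G h| - (μ h - unif G h)) / 2 -
        (|ν (h⁻¹ * x) - unif G (h⁻¹ * x)| - (ν (h⁻¹ * x) - unif G (h⁻¹ * x))) / 2 ≤ w h := by
      intro h
      have e : unif G (h⁻¹ * x) = unif G h := rfl
      rw [e]
      have a1 := le_abs_self (μ h - unif G h)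
      have a2 := neg_abs_le (μ h - unif G h)
      have a3 := le_abs_self (ν (h⁻¹ * x) - unif G h)
      have a4 := neg_abs_le (ν (h⁻¹ * x) - unif G h)
      exact le_min (by linarith) (by linarith)
    refine le_trans (le_of_eq ?_) (sum_le_sum fun h _ => h4 h)
    have e1 := sum_shift (fun g => |ν g - unif G g|) x
    have e2 := sum_shift ν x
    have e3 := sum_shift (unif G) x
    have e4 := two_tv μ
    have e5 := two_tv ν
    have e6 : ∑ g, unif G g = 1 := sum_unif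
    simp only [sum_sub_distrib, ← Finset.sum_div] at e1 ⊢
    rw [e1, e2, e3, hμ, hν, e6]
    linarith
  rw [div_le_iff₀ hc]
  have h5 : 0 ≤ ∑ h, w h := sum_nonneg fun h _ => hw0 h
  have h6 : (∑ h, w h) ^ 2 ≤ conv μ ν x * Fintype.card G := by
    refine h2.trans ?_
    rw [mul_comm]
    exact mul_le_mul_of_nonneg_right h1 hc.le
  have t1 := tv_nonneg μ
  have t2 := tv_nonneg ν
  rcases le_total 0 (1 - tv μ (unif G) - tv ν (unif G)) with h7 | h7
  · have h8 := pow_le_pow_left₀ h7 h3 2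
    nlinarith [sq_nonneg (tv μ (unif G) + tv ν (unif G))]
  · nlinarith [sq_nonneg (∑ h, w h)]

variable [DecidableEq G]

theorem tv_pow_mul {μ : G → ℝ} (hμ : ∑ g, μ g = 1) (L k : ℕ) :
    2 * tv (convPow μ (L * (k + 1))) (unif G) ≤ (2 * tv (convPow μ L) (unif G)) ^ (k + 1) := by
  induction k with
  | zero => simp
  | succ k ih =>
    rw [mul_add L (k + 1) 1, mul_one, convPow_add, pow_succ]
    refine (tv_conv_mul (sum_convPow μ hμ _) (sum_convPow μ hμ _)).trans ?_
    exact mul_le_mul_of_nonneg_right ih (by have := tv_nonneg (convPow μ L); positivity)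

/-- from one time to all later times -/
theorem decay {μ : G → ℝ} (hμ0 : ∀ t g, 0 ≤ convPow μ t g) (hμ : ∑ g, μ g = 1) {L : ℕ}
    (hL : 1 ≤ L) {c : ℝ} (hc : 0 ≤ c)
    (h : 2 * tv (convPow μ L) (unif G) ≤ Real.exp (-(c * L))) {t : ℕ} (ht : L ≤ t) :
    2 * tv (convPow μ t) (unif G) ≤ Real.exp (-(c / 2 * t)) := by
  obtain ⟨k, hk⟩ : ∃ k, t / L = k + 1 :=
    ⟨t / L - 1, by have := Nat.div_pos ht hL; omega⟩
  have h1 : t = t % L + L * (k + 1) := by rw [← hk]; exact (Nat.mod_add_div t L).symm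
  have h2 : t % L < L := Nat.mod_lt _ hL
  have h3 : t ≤ 2 * (L * (k + 1)) := by nlinarith
  have h4 : (t : ℝ) ≤ 2 * (L * ((k + 1 : ℕ) : ℝ)) := by exact_mod_cast h3
  calc 2 * tv (convPow μ t) (unif G)
      = 2 * tv (conv (convPow μ (t % L)) (convPow μ (L * (k + 1)))) (unif G) := by
        rw [← convPow_add, ← h1]
    _ ≤ 2 * tv (convPow μ (L * (k + 1))) (unif G) :=
        tv_conv_mono (hμ0 _) (sum_convPow μ hμ _)
    _ ≤ (2 * tv (convPow μ L) (unif G)) ^ (k + 1) := tv_pow_mul hμ L k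
    _ ≤ Real.exp (-(c * L)) ^ (k + 1) :=
        pow_le_pow_left₀ (by have := tv_nonneg (convPow μ L); positivity) h _
    _ = Real.exp (((k + 1 : ℕ) : ℝ) * -(c * L)) := (Real.exp_nat_mul _ _).symm
    _ ≤ _ := by
        apply Real.exp_le_exp.2
        nlinarith

end group

/-- the order of the mixing time -/
theorem order : ∃ c C : ℝ, 0 < c ∧ 0 < C ∧ ∀ m : ℕ, 1 ≤ m →
    IsLeast {t : ℕ | tv (convPow (thorpLaw m) t) (unif (Perm (Fin (2 * m)))) ≤ 1 / 4} (tmix m) ∧
      c * Real.log (2 * m : ℕ) ≤ tmix m ∧ (tmix m : ℝ) ≤ C * Real.log (2 * m : ℕ) := by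
  obtain ⟨C0, m0, h⟩ := even_upper
  exact assemble_gen C0 m0 h

theorem log_two_le {m : ℕ} (hm : 1 ≤ m) : Real.log 2 ≤ Real.log (2 * m : ℕ) := by
  apply Real.log_le_log (by norm_num)
  have : 2 ≤ 2 * m := by omega
  exact_mod_cast this

/-- Exponential decay after a logarithmic time, at an absolute rate. -/
theorem exp_decay : ∃ c C : ℝ, 0 < c ∧ 0 < C ∧ ∀ m : ℕ, 1 ≤ m → ∀ t : ℕ,
    C * Real.log (2 * m : ℕ) ≤ t →
      2 * tv (convPow (thorpLaw m) t) (unif (Perm (Fin (2 * m)))) ≤ Real.exp (-(c * t)) := by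
  obtain ⟨r, m₁, c₁, hr, hc₁, h₁⟩ := even_exp
  obtain ⟨c₀, C₀, hc₀, hC₀, h₀⟩ := order
  have hl2 : 0 < Real.log 2 := Real.log_pos (by norm_num)
  have hr0 : (0 : ℝ) < r := by exact_mod_cast hr
  set S : ℝ := C₀ * Real.log (2 * (m₁ + 1) : ℕ) with hS
  have hS0 : 0 < S := mul_pos hC₀ (hl2.trans_le (log_two_le (by omega)))
  refine ⟨min c₁ (Real.log 2 / S) / 2, C₀ + r / Real.log 2, by positivity, by positivity,
    fun m hm t ht => ?_⟩
  have hlog := log_two_le hm
  have hc : 0 ≤ min c₁ (Real.log 2 / S) := by positivity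
  have hr2 : 0 ≤ r / Real.log 2 * Real.log (2 * m : ℕ) := mul_nonneg (by positivity) (by linarith)
  have hC2 : 0 ≤ C₀ * Real.log (2 * m : ℕ) := mul_nonneg hC₀.le (by linarith)
  rcases Nat.lt_or_ge m m₁ with hlt | hge
  · obtain ⟨a1, a2, a3⟩ := h₀ m hm
    have hpos : (0 : ℝ) < tmix m := lt_of_lt_of_le (mul_pos hc₀ (by linarith)) a2
    have hL : 1 ≤ tmix m := by exact_mod_cast hpos
    have hTS : (tmix m : ℝ) ≤ S := by
      refine a3.trans (mul_le_mul_of_nonneg_left (Real.log_le_log ?_ ?_) hC₀.le)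
      · have : 0 < 2 * m := by omega
        exact_mod_cast this
      · have : 2 * m ≤ 2 * (m₁ + 1) := by omega
        exact_mod_cast this
    refine decay (convPow_nonneg m) (sum_thorpLaw m) hL hc ?_ ?_
    · have a4 : tv (convPow (thorpLaw m) (tmix m)) (unif (Perm (Fin (2 * m)))) ≤ 1 / 4 := a1.1
      have a5 : min c₁ (Real.log 2 / S) * tmix m ≤ Real.log 2 := by
        calc min c₁ (Real.log 2 / S) * tmix m ≤ Real.log 2 / S * S :=
              mul_le_mul (min_le_right _ _) hTS hpos.le (by positivity)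
          _ = Real.log 2 := by field_simp
      calc 2 * tv (convPow (thorpLaw m) (tmix m)) (unif (Perm (Fin (2 * m)))) ≤ 1 / 2 := by
            linarith
        _ = Real.exp (-Real.log 2) := by
            rw [Real.exp_neg, Real.exp_log (by norm_num)]; norm_num
        _ ≤ _ := Real.exp_le_exp.2 (by linarith)
    · have : (tmix m : ℝ) ≤ t := by nlinarith
      exact_mod_cast this
  · obtain ⟨a1, a2⟩ := h₁ m hge
    refine decay (convPow_nonneg m) (sum_thorpLaw m) (L := r * Nat.log 2 (2 * m))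
      (Nat.mul_pos hr a1) hc (a2.trans (Real.exp_le_exp.2 ?_)) ?_
    · have := mul_le_mul_of_nonneg_right (min_le_left c₁ (Real.log 2 / S))
        (Nat.cast_nonneg (α := ℝ) (r * Nat.log 2 (2 * m)))
      linarith
    · have h2 : (Nat.log 2 (2 * m) : ℝ) ≤ Real.logb 2 (2 * m : ℕ) :=
        Real.natLog_le_logb (2 * m) 2
      have h3 : (r : ℝ) * (Nat.log 2 (2 * m) : ℝ) ≤ r / Real.log 2 * Real.log (2 * m : ℕ) := by
        calc (r : ℝ) * (Nat.log 2 (2 * m) : ℝ) ≤ r * Real.logb 2 (2 * m : ℕ) :=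
              mul_le_mul_of_nonneg_left h2 hr0.le
          _ = _ := by rw [Real.logb]; ring
      have : ((r * Nat.log 2 (2 * m) : ℕ) : ℝ) ≤ t := by
        push_cast at h3 ht hC2 ⊢
        nlinarith
      exact_mod_cast this

/-- Exponential decay in total variation and in separation. -/
theorem exp_sep : ∃ c C : ℝ, 0 < c ∧ 0 < C ∧ ∀ m : ℕ, 1 ≤ m → ∀ t : ℕ,
    C * Real.log (2 * m : ℕ) ≤ t →
      tv (convPow (thorpLaw m) t) (unif (Perm (Fin (2 * m)))) ≤ Real.exp (-(c * t)) ∧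
      ∀ g, (1 - Real.exp (-(c * t))) / (2 * m).factorial ≤ convPow (thorpLaw m) t g := by
  obtain ⟨c, C, hc, hC, h⟩ := exp_decay
  have hl2 : 0 < Real.log 2 := Real.log_pos (by norm_num)
  refine ⟨c / 4, 2 * C + (4 * Real.log 2 / c + 2) / Real.log 2, by positivity, by positivity,
    fun m hm t ht => ?_⟩
  have hlog := log_two_le hm
  have hA : 4 * Real.log 2 / c + 2 ≤ (4 * Real.log 2 / c + 2) / Real.log 2 *
      Real.log (2 * m : ℕ) := by
    rw [div_mul_eq_mul_div, le_div_iff₀ hl2]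
    exact mul_le_mul_of_nonneg_left hlog (by positivity)
  have hB : 0 ≤ C * Real.log (2 * m : ℕ) := mul_nonneg hC.le (by linarith)
  have hD : 0 < 4 * Real.log 2 / c := by positivity
  have ht0 : (0 : ℝ) ≤ t := Nat.cast_nonneg t
  constructor
  · have h1 := h m hm t (by nlinarith)
    have h2 := tv_nonneg (convPow (thorpLaw m) t)
    have h3 : Real.exp (-(c * t)) ≤ Real.exp (-(c / 4 * t)) :=
      Real.exp_le_exp.2 (by nlinarith)
    linarith
  · intro g
    have e : t = t / 2 + (t - t / 2) := by omega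
    have s1 : ((t : ℝ) - 1) / 2 ≤ ((t / 2 : ℕ) : ℝ) := by
      have h1 : t ≤ 2 * (t / 2) + 1 := by omega
      have h2 : (t : ℝ) ≤ 2 * ((t / 2 : ℕ) : ℝ) + 1 := by exact_mod_cast h1
      linarith
    have s2 : ((t / 2 : ℕ) : ℝ) ≤ ((t - t / 2 : ℕ) : ℝ) := by
      have h1 : t / 2 ≤ t - t / 2 := by omega
      exact_mod_cast h1
    have h1 := h m hm (t / 2) (by nlinarith)
    have h2 := h m hm (t - t / 2) (by nlinarith)
    have h3 := conv_ge (convPow_nonneg m (t / 2)) (convPow_nonneg m (t - t / 2))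
      (sum_convPow _ (sum_thorpLaw m) _) (sum_convPow _ (sum_thorpLaw m) _) g
    rw [← convPow_add, ← e, Fintype.card_perm, Fintype.card_fin] at h3
    refine le_trans (div_le_div_of_nonneg_right ?_ (Nat.cast_nonneg _)) h3
    have h4 : Real.exp (-(c * ((t - t / 2 : ℕ) : ℝ))) ≤ Real.exp (-(c * ((t / 2 : ℕ) : ℝ))) :=
      Real.exp_le_exp.2 (by nlinarith)
    have h5 : 2 * Real.exp (-(c * ((t / 2 : ℕ) : ℝ))) ≤ Real.exp (-(c / 4 * t)) := by
      have h6 : 4 * Real.log 2 / c + 2 ≤ t := by nlinarith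
      have h7 : 4 * Real.log 2 + 2 * c ≤ c * t := by
        have := mul_le_mul_of_nonneg_left h6 hc.le
        rw [mul_add, mul_div_cancel₀ _ hc.ne'] at this
        linarith
      calc 2 * Real.exp (-(c * ((t / 2 : ℕ) : ℝ)))
          = Real.exp (Real.log 2 + -(c * ((t / 2 : ℕ) : ℝ))) := by
            rw [Real.exp_add, Real.exp_log (by norm_num)]
        _ ≤ _ := Real.exp_le_exp.2 (by nlinarith)
    linarith

end Vale.Agent.P162.N
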