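import Vale.Agent.N162.Decay

/-!
# P162: the distance never decays faster than `4 ^ (-t)`; mixing times for small tolerances
-/

open Finset Equiv

namespace Vale.Agent.P162.N

open H72

theorem sum_flip {m : ℕ} (i : Fin m) (G : (Fin m → Bool) → ℝ) :
    ∑ c, G c = ∑ c : Fin m → Bool, G (Function.update c i (!c i)) := by
  have hinv : Function.Involutive fun c : Fin m → Bool => Function.update c i (!c i) := by
    intro c
    simp
  exact (Equiv.sum_comp hinv.toPerm G).symm

theorem one_coin {m : ℕ} (i : Fin m) (F : Bool → ℝ) :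
    2 * ∑ c : Fin m → Bool, F (c i) = 2 ^ m * (F true + F false) := by
  have h1 := sum_flip i fun c => F (c i)
  simp only [Function.update_self] at h1
  have h2 : ∀ c : Fin m → Bool, F (c i) + F (!c i) = F true + F false := by
    intro c
    cases c i <;> simp [add_comm]
  calc 2 * ∑ c : Fin m → Bool, F (c i)
      = ∑ c : Fin m → Bool, F (c i) + ∑ c : Fin m → Bool, F (!c i) := by rw [← h1]; ring
    _ = ∑ _c : Fin m → Bool, (F true + F false) := by
        rw [← sum_add_distrib]; exact sum_congr rfl fun c _ => h2 c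
    _ = _ := by simp [mul_add]

theorem two_coins {m : ℕ} (i j : Fin m) (f : Bool → Bool → ℤ) :
    ∃ k : ℤ, 4 * ∑ c : Fin m → Bool, (f (c i) (c j) : ℝ) = 2 ^ m * k := by
  by_cases hij : j = i
  · subst hij
    refine ⟨2 * (f true true + f false false), ?_⟩
    have h := one_coin j fun b => (f b b : ℝ)
    push_cast
    linarith
  · refine ⟨f true true + f false true + (f true false + f false false), ?_⟩
    have h1 := sum_flip i fun c => (f (c i) (c j) : ℝ)
    simp only [Function.update_self, Function.update_of_ne hij] at h1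
    have h2 : ∀ c : Fin m → Bool, (f (c i) (c j) : ℝ) + f (!c i) (c j) =
        f true (c j) + f false (c j) := by
      intro c
      cases c i <;> simp [add_comm]
    have h3 := one_coin j fun b => (f true b : ℝ) + f false b
    have h4 : ∑ c : Fin m → Bool, (f (c i) (c j) : ℝ) + ∑ c : Fin m → Bool, (f (!c i) (c j) : ℝ) =
        ∑ c : Fin m → Bool, ((f true (c j) : ℝ) + f false (c j)) := by
      rw [← sum_add_distrib]; exact sum_congr rfl fun c _ => h2 c
    push_cast
    linarith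

/-- a card uses one coin -/
theorem exists_coin (m : ℕ) (x : Fin (2 * m)) :
    ∃ i : Fin m, ∀ c : Fin m → Bool, shuffle m c x = shuffle m (fun _ => c i) x := by
  by_cases h : (x : ℕ) < m
  · exact ⟨⟨x, h⟩, fun c => Fin.ext (by rw [shuffle_val_lt m _ x h, shuffle_val_lt m _ x h])⟩
  · exact ⟨⟨x - m, by omega⟩, fun c =>
      Fin.ext (by rw [shuffle_val_ge m _ x h, shuffle_val_ge m _ x h])⟩

theorem step_int (m : ℕ) (φ : Fin (2 * m) → Fin (2 * m) → ℤ) (x y : Fin (2 * m)) :
    ∃ k : ℤ, 4 * ∑ h, thorpLaw m h * (φ (h x) (h y) : ℝ) = k := by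
  obtain ⟨i, hi⟩ := exists_coin m x
  obtain ⟨j, hj⟩ := exists_coin m y
  obtain ⟨k, hk⟩ := two_coins i j fun b b' =>
    φ (shuffle m (fun _ => b) x) (shuffle m (fun _ => b') y)
  refine ⟨k, ?_⟩
  have h1 := sum_thorpLaw_smul m fun h => (φ (h x) (h y) : ℝ)
  simp only [smul_eq_mul] at h1
  simp only [← hi, ← hj] at hk
  rw [h1]
  have h2 : (2 : ℝ) ^ m ≠ 0 := by positivity
  field_simp
  linarith

theorem pow_int (m : ℕ) (a b : Fin (2 * m)) (t : ℕ) : ∀ φ : Fin (2 * m) → Fin (2 * m) → ℤ,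
    ∃ k : ℤ, 4 ^ t * ∑ g, convPow (thorpLaw m) t g * (φ (g a) (g b) : ℝ) = k := by
  induction t with
  | zero =>
    intro φ
    exact ⟨φ a b, by simp [convPow]⟩
  | succ t ih =>
    intro φ
    choose ψ hψ using step_int m φ
    obtain ⟨k, hk⟩ := ih ψ
    refine ⟨k, ?_⟩
    have h1 : ∑ g, convPow (thorpLaw m) (t + 1) g * (φ (g a) (g b) : ℝ) =
        ∑ g, convPow (thorpLaw m) t g * ∑ h, thorpLaw m h * (φ (h (g a)) (h (g b)) : ℝ) := by
      simp only [convPow, conv, Finset.sum_mul, Finset.mul_sum]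
      rw [sum_comm]
      conv_rhs => rw [sum_comm]
      refine sum_congr rfl fun h _ => ?_
      refine Fintype.sum_equiv (Equiv.mulLeft h⁻¹) _ _ fun g => ?_
      have hz : ∀ z, h (h⁻¹ z) = z := fun z => by simp
      simp only [Equiv.coe_mulLeft, Perm.mul_apply, hz]
      ring
    rw [h1, ← hk, pow_succ, mul_assoc, Finset.mul_sum]
    congr 1
    refine sum_congr rfl fun g _ => ?_
    rw [← hψ]
    ring

section pairs
variable {X : Type} [Fintype X] [DecidableEq X]

theorem pair_card_eq (a b : X) {x y x' y' : X} (hxy : x ≠ y) (hxy' : x' ≠ y') :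
    (univ.filter fun g : Perm X => g a = x ∧ g b = y).card =
      (univ.filter fun g : Perm X => g a = x' ∧ g b = y').card := by
  obtain ⟨τ, h1, h2⟩ : ∃ τ : Perm X, τ x = x' ∧ τ y = y' := by
    refine ⟨swap (swap x x' y) y' * swap x x', ?_, ?_⟩
    · rw [Perm.mul_apply, swap_apply_left]
      refine swap_apply_of_ne_of_ne (fun h => hxy ?_) hxy'
      have := congrArg (swap x x') h
      rwa [swap_apply_right, swap_apply_self] at this
    · rw [Perm.mul_apply, swap_apply_left]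
  refine Finset.card_equiv (Equiv.mulLeft τ) fun g => ?_
  simp only [mem_filter, mem_univ, true_and, Equiv.coe_mulLeft, Perm.mul_apply, ← h1, ← h2,
    EmbeddingLike.apply_eq_iff_eq]

theorem sum_pairs (a b : X) (hab : a ≠ b) (F : Perm X → ℝ) :
    ∑ p ∈ (univ : Finset X).offDiag, ∑ g ∈ univ.filter fun g : Perm X => g a = p.1 ∧ g b = p.2,
      F g = ∑ g, F g := by
  have h := Finset.sum_fiberwise_of_maps_to (s := (univ : Finset (Perm X)))
    (t := (univ : Finset X).offDiag) (g := fun g : Perm X => (g a, g b))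
    (fun g _ => by simpa using hab) F
  rw [← h]
  refine sum_congr rfl fun p _ => sum_congr ?_ fun _ _ => rfl
  ext g
  simp [Prod.ext_iff]

theorem pair_unif (a b : X) (hab : a ≠ b) {x y : X} (hxy : x ≠ y) :
    ((univ : Finset X).offDiag.card : ℝ) *
      ∑ g ∈ univ.filter fun g : Perm X => g a = x ∧ g b = y, unif (Perm X) g = 1 := by
  have h1 := sum_pairs a b hab (unif (Perm X))
  rw [sum_unif] at h1
  rw [← h1, ← nsmul_eq_mul, ← Finset.sum_const]
  refine sum_congr rfl fun p hp => ?_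
  have hp' : p.1 ≠ p.2 := (mem_offDiag.1 hp).2.2
  simp only [unif, sum_const, pair_card_eq a b hxy hp']

end pairs

/-- The dyadic lower bound. -/
theorem dyadic_lower {m : ℕ} (hm : 2 ≤ m) (t : ℕ) :
    1 / (2 * 4 ^ t) ≤ tv (convPow (thorpLaw m) t) (unif (Perm (Fin (2 * m)))) := by
  set a : Fin (2 * m) := ⟨0, by omega⟩
  set b : Fin (2 * m) := ⟨1, by omega⟩
  have hab : a ≠ b := by simp [a, b]
  have hcard : (univ : Finset (Fin (2 * m))).offDiag.card = 2 * m * (2 * m - 1) := by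
    rw [offDiag_card, card_univ, Fintype.card_fin, Nat.mul_sub_one]
  obtain ⟨Q, hQ⟩ : ∃ Q : ℕ, Q = (univ : Finset (Fin (2 * m))).offDiag.card := ⟨_, rfl⟩
  have hQ0 : (0 : ℝ) < Q := by
    have : 0 < Q := by rw [hQ, hcard]; exact Nat.mul_pos (by omega) (by omega)
    exact_mod_cast this
  have key : ∀ p ∈ (univ : Finset (Fin (2 * m))).offDiag, 1 / (4 ^ t * Q : ℝ) ≤
      ∑ g ∈ univ.filter fun g : Perm (Fin (2 * m)) => g a = p.1 ∧ g b = p.2,
        |convPow (thorpLaw m) t g - unif (Perm (Fin (2 * m))) g| := by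
    intro p hp
    refine le_trans ?_ (abs_sum_le_sum_abs _ _)
    rw [sum_sub_distrib]
    obtain ⟨k, hk⟩ := pow_int m a b t fun u v => if u = p.1 ∧ v = p.2 then 1 else 0
    have h1 : ∑ g, convPow (thorpLaw m) t g *
        ((if g a = p.1 ∧ g b = p.2 then 1 else 0 : ℤ) : ℝ) =
        ∑ g ∈ univ.filter fun g : Perm (Fin (2 * m)) => g a = p.1 ∧ g b = p.2,
          convPow (thorpLaw m) t g := by
      rw [sum_filter]
      refine sum_congr rfl fun g _ => ?_
      split <;> simp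
    rw [h1] at hk
    have h2 := pair_unif a b hab (mem_offDiag.1 hp).2.2
    rw [← hQ] at h2
    have h3 : k * Q - 4 ^ t ≠ (0 : ℤ) := by
      intro h
      have h4 : ((2 * m - 1 : ℕ) : ℤ) ∣ 4 ^ t := by
        refine ⟨k * (2 * m : ℕ), ?_⟩
        rw [hQ, hcard] at h
        push_cast at h ⊢
        linarith
      have h5 : (2 * m - 1) ∣ 2 ^ (2 * t) := by
        rw [pow_mul]
        exact_mod_cast h4
      have h6 : Nat.Coprime (2 * m - 1) (2 ^ (2 * t)) := by
        apply Nat.Coprime.pow_right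
        rw [Nat.coprime_two_right]
        exact ⟨m - 1, by omega⟩
      have h7 := Nat.Coprime.eq_one_of_dvd h6 h5
      omega
    have h8 : (1 : ℝ) ≤ |(k : ℝ) * Q - 4 ^ t| := by
      have := Int.one_le_abs h3
      exact_mod_cast this
    rw [div_le_iff₀ (by positivity)]
    refine h8.trans (le_of_eq ?_)
    rw [← abs_of_pos (show (0 : ℝ) < 4 ^ t * Q by positivity), ← abs_mul]
    congr 1
    rw [← hk]
    linear_combination (4 ^ t : ℝ) * h2
  have h1 := sum_le_sum key
  rw [sum_pairs a b hab, ← two_tv, sum_const, ← hQ, nsmul_eq_mul] at h1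
  have e : (Q : ℝ) * (1 / (4 ^ t * Q)) = 2 * (1 / (2 * 4 ^ t)) := by field_simp
  linarith

/-- The mixing time for every tolerance. -/
theorem eps_mix : ∃ c C : ℝ, 0 < c ∧ 0 < C ∧ ∀ m : ℕ, 2 ≤ m → ∀ ε : ℝ, 0 < ε → ε ≤ 1 / 4 →
    ∃ T : ℕ, IsLeast {t : ℕ | tv (convPow (thorpLaw m) t) (unif (Perm (Fin (2 * m)))) ≤ ε} T ∧
      c * Real.log ((2 * m : ℕ) / ε) ≤ T ∧ T ≤ C * Real.log ((2 * m : ℕ) / ε) := by
  obtain ⟨c₀, C₀, hc₀, -, h₀⟩ := order
  obtain ⟨c₁, C₁, hc₁, hC₁, h₁⟩ := exp_sep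
  have hl2 := Real.log_two_gt_d9
  have hl2' := Real.log_two_lt_d9
  refine ⟨1 / (1 / c₀ + 3), C₁ + 1 / c₁ + 1, by positivity, by positivity,
    fun m hm ε hε hε' => ?_⟩
  have hlog := log_two_le (m := m) (by omega)
  have hm0 : (0 : ℝ) < (2 * m : ℕ) := by
    have : 0 < 2 * m := by omega
    exact_mod_cast this
  have hsplit : Real.log ((2 * m : ℕ) / ε) = Real.log (2 * m : ℕ) + -Real.log ε := by
    rw [Real.log_div hm0.ne' hε.ne']; ring
  have hεl : Real.log ε ≤ -(2 * Real.log 2) := by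
    have h1 := Real.log_le_log hε hε'
    have h2 : Real.log (1 / 4) = -(2 * Real.log 2) := by
      rw [one_div, Real.log_inv, show (4 : ℝ) = 2 ^ 2 by norm_num, Real.log_pow]; norm_num
    linarith
  set t₀ : ℕ := ⌈C₁ * Real.log (2 * m : ℕ) + -Real.log ε / c₁⌉₊ with ht₀
  have hA : 0 ≤ C₁ * Real.log (2 * m : ℕ) := mul_nonneg hC₁.le (by linarith)
  have hB : 0 ≤ -Real.log ε / c₁ := div_nonneg (by linarith) hc₁.le
  have ht1 : C₁ * Real.log (2 * m : ℕ) + -Real.log ε / c₁ ≤ t₀ := Nat.le_ceil _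
  have ht2 : (t₀ : ℝ) < C₁ * Real.log (2 * m : ℕ) + -Real.log ε / c₁ + 1 :=
    Nat.ceil_lt_add_one (by linarith)
  have hmem : t₀ ∈ {t : ℕ | tv (convPow (thorpLaw m) t) (unif (Perm (Fin (2 * m)))) ≤ ε} := by
    refine (h₁ m (by omega) t₀ (by linarith)).1.trans ?_
    rw [← Real.exp_log hε]
    apply Real.exp_le_exp.2
    have h3 : -Real.log ε / c₁ ≤ t₀ := by linarith
    rw [div_le_iff₀ hc₁] at h3
    linarith
  set T := sInf {t : ℕ | tv (convPow (thorpLaw m) t) (unif (Perm (Fin (2 * m)))) ≤ ε} with hT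
  have hT1 : tv (convPow (thorpLaw m) T) (unif (Perm (Fin (2 * m)))) ≤ ε :=
    Nat.sInf_mem (s := {t : ℕ | tv (convPow (thorpLaw m) t) (unif (Perm (Fin (2 * m)))) ≤ ε})
      ⟨t₀, hmem⟩
  refine ⟨T, ⟨hT1, fun t ht => Nat.sInf_le ht⟩, ?_, ?_⟩
  · obtain ⟨a1, a2, -⟩ := h₀ m (by omega)
    have a3 : tmix m ≤ T := a1.2 (hT1.trans hε')
    have a4 : c₀ * Real.log (2 * m : ℕ) ≤ T := a2.trans (by exact_mod_cast a3)
    have a5 : (0 : ℝ) < T := lt_of_lt_of_le (mul_pos hc₀ (by linarith)) a4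
    have a6 : (1 : ℝ) ≤ T := by
      have : 0 < T := by exact_mod_cast a5
      exact_mod_cast this
    have a7 := Real.log_le_log (by positivity) ((dyadic_lower hm T).trans hT1)
    rw [one_div, Real.log_inv, Real.log_mul (by norm_num) (by positivity), Real.log_pow,
      show (4 : ℝ) = 2 ^ 2 by norm_num, Real.log_pow] at a7
    push_cast at a7
    have a8 : Real.log (2 * m : ℕ) ≤ 1 / c₀ * T := by
      rw [one_div, ← div_eq_inv_mul, le_div_iff₀ hc₀]; linarith
    rw [hsplit, one_div, inv_mul_le_iff₀ (by positivity)]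
    nlinarith
  · have a1 : T ≤ t₀ := Nat.sInf_le hmem
    have a2 : (T : ℝ) ≤ t₀ := by exact_mod_cast a1
    rw [hsplit]
    have a3 : 0 ≤ C₁ * -Real.log ε := mul_nonneg hC₁.le (by linarith)
    have a4 : 0 ≤ 1 / c₁ * Real.log (2 * m : ℕ) := mul_nonneg (by positivity) (by linarith)
    have a5 : -Real.log ε / c₁ = 1 / c₁ * -Real.log ε := by ring
    nlinarith

end Vale.Agent.P162.N
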