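import Vale.Agent.P162.H72.Even

/-!
# P162: the upper bound with a polynomially small error
-/

open Finset Equiv Filter
open scoped Topology

namespace Vale.Agent.P162.N

open S2 S2.Abs H72 H491

theorem exp_expo_le {c κ : ℝ} (hc : 0 < c) (hκ : 0 < κ) (hκ' : κ ≤ 1 / 4) :
    ∀ᶠ n : ℕ in atTop, 2 * Real.exp (expo c κ n) ≤ 2 * Real.exp (c * Real.log 2) / n := by
  have hlog2 : 0 < Real.log 2 := Real.log_pos (by norm_num)
  have ha : 0 < 1 - 3 * κ / 4 := by linarith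
  have h2 : Tendsto (fun n : ℕ => (n : ℝ) ^ (κ / 4)) atTop atTop :=
    (tendsto_rpow_atTop (by positivity)).comp tendsto_natCast_atTop_atTop
  have h3 : Tendsto (fun n : ℕ => c * Real.log 2 * (n : ℝ) ^ (κ / 4)
      - (4 / κ) * (4 * (2 + 8 / κ) + 4)) atTop atTop := by
    apply tendsto_atTop_add_const_right
    exact h2.const_mul_atTop (by positivity)
  filter_upwards [h3.eventually_ge_atTop (1 / (1 - 3 * κ / 4)), eventually_ge_atTop 1] with n h4 h5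
  have hn : (0 : ℝ) < n := by exact_mod_cast h5
  have h6 := Real.log_le_rpow_div hn.le ha
  have h7 : (n : ℝ) ^ (1 - 3 * κ / 4) * (1 / (1 - 3 * κ / 4)) ≤ (n : ℝ) ^ (1 - 3 * κ / 4) *
      (c * Real.log 2 * (n : ℝ) ^ (κ / 4) - (4 / κ) * (4 * (2 + 8 / κ) + 4)) :=
    mul_le_mul_of_nonneg_left h4 (by positivity)
  rw [mul_one_div] at h7
  have h8 : expo c κ n ≤ c * Real.log 2 - Real.log n := by
    unfold expo
    linarith
  calc 2 * Real.exp (expo c κ n) ≤ 2 * Real.exp (c * Real.log 2 - Real.log n) := by gcongr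
    _ = 2 * Real.exp (c * Real.log 2) / n := by
        rw [Real.exp_sub, Real.exp_log hn, mul_div_assoc]

/-- The abstract theorem with an error of order `1 / N`. -/
theorem ABq {κ : ℝ} (hκ : 0 < κ) (hκ' : κ ≤ 1 / 4) : ∃ (R N₀ : ℕ) (C : ℝ), 1 ≤ R ∧
    ∀ (α : Type) [Fintype α] [DecidableEq α] (q : Perm α → ℝ), N₀ ≤ Fintype.card α →
      Data q κ → ret q R ≤ (∑ g, q g) ^ R + C / Fintype.card α := by
  have hD := H372.propD
  obtain ⟨c, hc, k₁, hE⟩ := H816.propE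
  obtain ⟨R₀, N₁, C, hF⟩ := H151.propF κ hκ
  set R : ℕ := 2 * (R₀ + ⌈8 / κ⌉₊ + 1) with hRdef
  have hR1 : 8 / κ + 1 ≤ (R : ℝ) := by
    have h1 : 8 / κ ≤ ⌈8 / κ⌉₊ := Nat.le_ceil _
    have h2 : 0 ≤ 8 / κ := by positivity
    have h3 : (R : ℝ) = 2 * ((R₀ : ℝ) + (⌈8 / κ⌉₊ : ℝ) + 1) := by rw [hRdef]; push_cast; ring
    rw [h3]
    have h4 : (0 : ℝ) ≤ R₀ := Nat.cast_nonneg _
    linarith
  have hR0 : R ≥ R₀ := by omega
  have hReven : Even R := ⟨R₀ + ⌈8 / κ⌉₊ + 1, by omega⟩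
  have hcast := tendsto_natCast_atTop_atTop (R := ℝ)
  have ev1 : ∀ᶠ n : ℕ in atTop, (k₁ : ℝ) ≤ (n : ℝ) ^ (1 - κ / 2) :=
    ((tendsto_rpow_atTop (by linarith : 0 < 1 - κ / 2)).comp hcast).eventually_ge_atTop _
  have ev2 := exp_expo_le hc hκ hκ'
  obtain ⟨N₀, hN₀⟩ := eventually_atTop.1 (ev1.and (ev2.and
    ((eventually_ge_atTop 1).and (eventually_ge_atTop N₁))))
  refine ⟨R, N₀, C + 2 * Real.exp (c * Real.log 2), by omega, fun α _ _ q hα hq => ?_⟩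
  obtain ⟨g1, g2, g4, g5⟩ := hN₀ _ hα
  set N := Fintype.card α with hN
  have hN1 : (1 : ℝ) ≤ N := by exact_mod_cast g4
  set k0 : ℕ := ⌊(N : ℝ) ^ (1 - κ / 2)⌋₊ with hk0
  have hk1 : k₁ ≤ k0 := Nat.le_floor g1
  have hk2 : (k0 : ℝ) ≤ (N : ℝ) ^ (1 - κ / 2) := Nat.floor_le (by positivity)
  have hk3 : k0 ≤ N := by
    have h : (N : ℝ) ^ (1 - κ / 2) ≤ (N : ℝ) ^ (1 : ℝ) :=
      Real.rpow_le_rpow_of_exponent_le hN1 (by linarith)
    rw [Real.rpow_one] at h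
    exact_mod_cast hk2.trans h
  have hlow := hF α q g5 hq R hR0 hReven k0 hk2
  set M : ℝ := (2 : ℝ) ^ (-(c * (k0 : ℝ))) with hM
  have hM0 : 0 ≤ M := by positivity
  have hM1 : M ≤ 1 := by
    rw [hM]
    apply Real.rpow_le_one_of_one_le_of_nonpos (by norm_num)
    have : 0 ≤ c * (k0 : ℝ) := by positivity
    linarith
  have hR4 : 4 / (κ / 2) ≤ (R : ℝ) := by
    have e4 : 4 / (κ / 2) = 8 / κ := by field_simp; norm_num
    rw [e4]
    linarith
  have hhigh := hD α q hq.nonneg hq.symm hq.class_fn hq.psd (κ / 2) M R (LowS α k0)ᗮ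
    (by positivity) (by linarith) hM0 hM1 hR4 g4
    (fun g f hf => lt_mem_LowS_orth g k0 hf) (fun g f hf => rt_mem_LowS_orth g k0 hf)
    (fun f hf => hE α q κ hq k0 hk1 hk3 f hf)
  have hK1 : 1 ≤ ⌈(N : ℝ) ^ (κ / 2)⌉₊ := by
    have : 0 < (N : ℝ) ^ (κ / 2) := by positivity
    exact Nat.one_le_iff_ne_zero.2 (Nat.ceil_pos.2 this).ne'
  have hZ := (ZK_le hq g4 hK1).trans (log_bound hκ hκ' hN1)
  have hexp := exponent_le hc hκ hκ' hN1 hR1 hM (ZK_nonneg hq.nonneg _) hZ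
  have hsum := trOn_add_trOn_orth (op q ^ R) (LowS α k0)
  unfold ret
  rw [← hsum, add_div]
  linarith

/-- The good windows, with the explicit probability of the bad ones. -/
theorem partBq {m : ℕ} (hm : 128 ≤ m) :
    ∃ ω : (Fin (2 * (7 * m / 8)) ↪ Fin (2 * m)) →
      (Fin (Nat.log 2 (2 * m)) → Fin (2 * m) → Bool) → ℝ,
    (∀ f r, 0 ≤ ω f r) ∧ (∀ f r, ω f r ≤ 1) ∧ (∀ τ f r, ω (Net.relab τ f) r = ω f r) ∧
    Abs.Data ((thorpNet m).qlaw (Nat.log 2 (2 * m)) ω) (1 / 32) ∧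
    (1 - avg fun f : Fin (2 * (7 * m / 8)) ↪ Fin (2 * m) => avg fun r => ω f r) ≤
      (1 / 6 : ℝ) ^ (Nat.log 2 (2 * m) / 8) := by
  have hL : 8 ≤ Nat.log 2 (2 * m) := by
    have h : Nat.log 2 (2 ^ 8) ≤ Nat.log 2 (2 * m) := Nat.log_mono_right (by norm_num; omega)
    rwa [Nat.log_pow (by norm_num)] at h
  obtain ⟨-, h2, h3⟩ := log_facts (m := m) (by omega)
  obtain ⟨r1, r2, r3⟩ := red_facts m (by omega)
  have hcX : Fintype.card (Fin (2 * m)) = 2 * m := Fintype.card_fin _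
  have hcα : Fintype.card (Fin (2 * (7 * m / 8))) = 2 * (7 * m / 8) := Fintype.card_fin _
  refine ⟨H790.gInd (thorpNet m) (Nat.log 2 (2 * m)) (Nat.log 2 (2 * m) / 8),
    H790.gInd_nonneg _ _ _, H790.gInd_le_one _ _ _, H790.gInd_relab _ _ _, ?_, ?_⟩
  · refine qlaw_data_five (thorpNet m) (up_thorp h2 0) (by omega) ?_ ?_ ?_
    · rw [hcα]
      exact even_two_mul _
    · rw [hcα, sqrt_half_pow]
      exact core_loop _ _ hL (by omega) (by omega)
    · rw [hcα, hcX]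
      omega
  · refine (H790.one_sub_gInd_le (thorpNet m) (one_thorp h2 0) (by omega) (by omega)
      (by rw [hcX]; omega) (by rw [hcα, hcX]; omega)).trans ?_
    rw [hcX, hcα]
    have hNX : 2 * (7 * m / 8) ≤ 2 * m := by omega
    have e1 : Nat.log 2 (2 * m) + 1 - Nat.log 2 (2 * m) / 8
        = Nat.log 2 (2 * m) - Nat.log 2 (2 * m) / 8 + 1 := by omega
    rw [e1]
    have e2 : (((2 * m : ℕ) : ℝ) - ((2 * (7 * m / 8) : ℕ) : ℝ)) / (((2 * m : ℕ) : ℝ) - 1)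
        = ((2 * m - 2 * (7 * m / 8) : ℕ) : ℝ) / ((2 * m - 1 : ℕ) : ℝ) := by
      rw [Nat.cast_sub hNX, Nat.cast_sub (by omega : 1 ≤ 2 * m)]
      simp
    rw [e2]
    exact core_num _ _ (by positivity) r3 (by omega)

/-- After `r log₂ n` shuffles the distance is polynomially small. -/
theorem even_quant : ∃ (r m₁ : ℕ) (K : ℝ), 1 ≤ r ∧ ∀ m, m₁ ≤ m →
    tv (convPow (thorpLaw m) (r * Nat.log 2 (2 * m))) (unif (Perm (Fin (2 * m)))) ≤
      K * (1 / 2 : ℝ) ^ (Nat.log 2 (2 * m) / 8) := by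
  obtain ⟨R, N₀, C', hR1, hN⟩ := ABq (κ := 1 / 32) (by norm_num) (by norm_num)
  obtain ⟨C, m₀, hm₀⟩ := H915.mixEven
  refine ⟨R * (C + 1), m₀ + 8 * N₀ + 128, (R + 1) + R + 1 / 2 * √|C'|,
    Nat.mul_pos hR1 (by omega), ?_⟩
  intro m hm
  apply tv_thorp_le_of_net
  intro F h0 h1
  have hω := partBq (m := m) (by omega)
  have hmix := hm₀ m (by omega)
  obtain ⟨hL7, hL2, hL3⟩ := log_facts (m := m) (by omega)
  obtain ⟨L, hL⟩ : ∃ L, L = Nat.log 2 (2 * m) := ⟨_, rfl⟩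
  obtain ⟨N, hNdef⟩ : ∃ N, N = 2 * (7 * m / 8) := ⟨_, rfl⟩
  rw [← hL, ← hNdef] at hω
  rw [← hL] at hmix hL7 hL2 hL3 ⊢
  obtain ⟨ω, w0, w1, w2, w3, w4⟩ := hω
  have hcard : Fintype.card (Fin N) = N := Fintype.card_fin _
  have hret := hN (Fin N) _ (by rw [hcard]; omega) w3
  obtain ⟨ι⟩ : Nonempty (Fin N ↪ Fin (2 * m)) := by
    apply Function.Embedding.nonempty_of_card_le
    rw [Fintype.card_fin, Fintype.card_fin]
    omega
  have m1 : (thorpNet m).Mixes (C * L) (1 / (2 * m : ℝ) ^ 3) (Fin N) :=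
    hmix _ le_rfl _ (by rw [hcard]; omega)
  have m2 : (thorpNet m).Mixes (C * L) (1 / (2 * m : ℝ) ^ 3) {x // x ∉ Set.range ι} := by
    apply hmix _ le_rfl
    have h2 : Fintype.card {x // x ∉ Set.range ι} = 2 * m - N := by
      have h3 := Fintype.card_subtype_compl (fun x => x ∈ Set.range ι)
      have h4 : Fintype.card {x // x ∈ Set.range ι} = N := by
        have := Set.card_range_of_injective ι.injective
        rw [hcard] at this
        exact this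
      rw [h4] at h3
      simpa using h3
    rw [h2]
    omega
  have h := Net.run_le (thorpNet_per m) (one_dvd (C * L)) (one_dvd L) ι m1 m2 w0 w1 w2 hR1 F h0 h1
  have e3 : R * (C * L + L) = R * (C + 1) * L := by ring
  rw [e3] at h
  refine h.trans ?_
  set y : ℝ := (1 / 2 : ℝ) ^ (L / 8) with hy
  have hy0 : 0 < y := by positivity
  have hpow : (2 : ℝ) ^ (2 * (L / 8)) ≤ N := by
    have h2 : 2 ^ (2 * (L / 8)) ≤ 2 ^ (L - 1) := Nat.pow_le_pow_right (by norm_num) (by omega)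
    have h3 : 2 ^ L = 2 * 2 ^ (L - 1) := by
      rw [← pow_succ']; congr 1; omega
    have h4 : 2 ^ (2 * (L / 8)) ≤ N := by omega
    exact_mod_cast h4
  have hyy : y ^ 2 * (2 : ℝ) ^ (2 * (L / 8)) = 1 := by
    rw [hy, ← pow_mul, mul_comm (L / 8) 2, ← mul_pow]; norm_num
  have hNpos : (0 : ℝ) < N := lt_of_lt_of_le (by positivity) hpow
  have hy1 : y ≤ 1 := pow_le_one₀ (by norm_num) (by norm_num)
  have hNy : 1 / (N : ℝ) ≤ y ^ 2 := by
    rw [div_le_iff₀ hNpos, ← hyy]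
    exact mul_le_mul_of_nonneg_left hpow (by positivity)
  have a1 : 1 / (2 * m : ℝ) ^ 3 ≤ y := by
    have hNm : (N : ℝ) ≤ 2 * m := by
      have : N ≤ 2 * m := by omega
      exact_mod_cast this
    have hm1 : (1 : ℝ) ≤ 2 * m := by
      have : 1 ≤ 2 * m := by omega
      exact_mod_cast this
    have h4 : (2 * m : ℝ) ≤ (2 * m : ℝ) ^ 3 := le_self_pow₀ hm1 (by norm_num)
    calc 1 / (2 * m : ℝ) ^ 3 ≤ 1 / (N : ℝ) := one_div_le_one_div_of_le hNpos (hNm.trans h4)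
      _ ≤ y ^ 2 := hNy
      _ ≤ y := by nlinarith
  have a2 : (1 - avg fun f : Fin N ↪ Fin (2 * m) => avg fun r => ω f r) ≤ y :=
    w4.trans (pow_le_pow_left₀ (by norm_num) (by norm_num) _)
  have a3 : √((Fintype.card (Perm (Fin N)) : ℝ) * convPow ((thorpNet m).qlaw L ω) R 1 -
      (∑ g, (thorpNet m).qlaw L ω g) ^ R) ≤ √|C'| * y := by
    rw [Fintype.card_perm, ← Abs.ret_eq]
    rw [hcard] at hret
    have h5 : C' / N ≤ |C'| * y ^ 2 := by
      calc C' / N ≤ |C'| / N := div_le_div_of_nonneg_right (le_abs_self _) hNpos.le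
        _ = |C'| * (1 / N) := by ring
        _ ≤ |C'| * y ^ 2 := mul_le_mul_of_nonneg_left hNy (abs_nonneg _)
    calc √(ret ((thorpNet m).qlaw L ω) R - (∑ g, (thorpNet m).qlaw L ω g) ^ R)
        ≤ √(|C'| * y ^ 2) := Real.sqrt_le_sqrt (by linarith)
      _ = √|C'| * y := by rw [Real.sqrt_mul (abs_nonneg _), Real.sqrt_sq hy0.le]
  have b1 : ((R : ℝ) + 1) * (1 / (2 * m : ℝ) ^ 3) ≤ (R + 1) * y :=
    mul_le_mul_of_nonneg_left a1 (by positivity)
  have b2 : (R : ℝ) * (1 - avg fun f : Fin N ↪ Fin (2 * m) => avg fun r => ω f r) ≤ R * y :=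
    mul_le_mul_of_nonneg_left a2 (by positivity)
  nlinarith

/-- Exponential form for large decks. -/
theorem even_exp : ∃ (r m₁ : ℕ) (c : ℝ), 1 ≤ r ∧ 0 < c ∧ ∀ m, m₁ ≤ m → 1 ≤ Nat.log 2 (2 * m) ∧
    2 * tv (convPow (thorpLaw m) (r * Nat.log 2 (2 * m))) (unif (Perm (Fin (2 * m)))) ≤
      Real.exp (-(c * (r * Nat.log 2 (2 * m) : ℕ))) := by
  obtain ⟨r, m₁, K, hr, h⟩ := even_quant
  obtain ⟨j₀, hj₀⟩ := pow_unbounded_of_one_lt (2 * K) (show (1 : ℝ) < 2 by norm_num)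
  have hl2 : 0 < Real.log 2 := Real.log_pos (by norm_num)
  have hr0 : (0 : ℝ) < r := by exact_mod_cast hr
  refine ⟨r, m₁ + 2 ^ (16 * j₀ + 16), Real.log 2 / (32 * r), hr, by positivity, fun m hm => ?_⟩
  have hL : 16 * j₀ + 16 ≤ Nat.log 2 (2 * m) := by
    have h1 : Nat.log 2 (2 ^ (16 * j₀ + 16)) ≤ Nat.log 2 (2 * m) := Nat.log_mono_right (by omega)
    rwa [Nat.log_pow (by norm_num)] at h1
  refine ⟨by omega, ?_⟩
  have h1 := h m (le_trans (Nat.le_add_right _ _) hm)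
  obtain ⟨L, hLdef⟩ : ∃ L, L = Nat.log 2 (2 * m) := ⟨_, rfl⟩
  rw [← hLdef] at h1 hL ⊢
  have h2 : (1 / 2 : ℝ) ^ (L / 8) = Real.exp (-((L / 8 : ℕ) * Real.log 2)) := by
    rw [Real.exp_neg, Real.exp_nat_mul, Real.exp_log (by norm_num), one_div, inv_pow]
  have h3 : (2 : ℝ) ^ j₀ = Real.exp (j₀ * Real.log 2) := by
    rw [Real.exp_nat_mul, Real.exp_log (by norm_num)]
  have h4 : (L : ℝ) ≤ 32 * (((L / 8 : ℕ) : ℝ) - j₀) := by
    have h5 : L + 32 * j₀ ≤ 32 * (L / 8) := by omega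
    have h6 : (L : ℝ) + 32 * j₀ ≤ 32 * ((L / 8 : ℕ) : ℝ) := by exact_mod_cast h5
    linarith
  calc 2 * tv (convPow (thorpLaw m) (r * L)) (unif (Perm (Fin (2 * m))))
      ≤ (2 * K) * (1 / 2 : ℝ) ^ (L / 8) := by linarith
    _ ≤ 2 ^ j₀ * (1 / 2 : ℝ) ^ (L / 8) := mul_le_mul_of_nonneg_right hj₀.le (by positivity)
    _ = Real.exp (j₀ * Real.log 2 + -((L / 8 : ℕ) * Real.log 2)) := by
        rw [h2, h3, Real.exp_add]
    _ ≤ _ := by
        apply Real.exp_le_exp.2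
        have e : Real.log 2 / (32 * r) * ((r * L : ℕ) : ℝ) = L / 32 * Real.log 2 := by
          push_cast; field_simp
        rw [e]
        nlinarith

end Vale.Agent.P162.N
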